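import Mathlib

/-!
# Cubic graphs covered by disjoint four-cycles are Hamiltonian

On every square choose one of its two pairs of opposite edges. With the outer edges this gives a
spanning union of cycles; changing the choice on a square met by two cycles joins them.
-/

open SimpleGraph

namespace Vale.Agent.P039

variable {V : Type*} (r : V → V) (G : SimpleGraph V)

/-- `r` walks round a family of disjoint four-cycles of `G` covering every vertex. -/
structure SquareCover : Prop where
  adj : ∀ v, G.Adj v (r v)
  four : ∀ v, r (r (r (r v))) = v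
  two : ∀ v, r (r v) ≠ v

variable {r G}

theorem SquareCover.inj (h : SquareCover r G) : Function.Injective r := fun a b hab => by
  rw [← h.four a, ← h.four b, hab]

theorem SquareCover.ne_one (h : SquareCover r G) (v : V) : r v ≠ v := (h.adj v).ne'

theorem SquareCover.ne_three (h : SquareCover r G) (v : V) : r (r (r v)) ≠ v := fun hv => by
  have := h.four v
  rw [hv] at this
  exact h.ne_one v this

theorem SquareCover.adj_three (h : SquareCover r G) (v : V) : G.Adj v (r (r (r v))) := by
  have := h.adj (r (r (r v)))
  rw [h.four] at this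
  exact this.symm

theorem SquareCover.ne_sides (h : SquareCover r G) (v : V) : r (r (r v)) ≠ r v := fun hv =>
  h.two v (h.inj hv)

variable (r G) in
/-- A choice of one pair of opposite edges on each square. -/
structure Choice (s : V → V) : Prop where
  invol : ∀ v, s (s v) = v
  side : ∀ v, s v = r v ∨ s v = r (r (r v))

/-- A choice exists. -/
theorem exists_choice [Finite V] (h : SquareCover r G) : ∃ s : V → V, Choice r s := by
  classical
  obtain ⟨k, ⟨e⟩⟩ := Finite.exists_equiv_fin V
  set M : V → Prop := fun x => e x ≤ e (r x) ∧ e x ≤ e (r (r x)) ∧ e x ≤ e (r (r (r x))) with hM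
  have huniq : ∀ x, M x → ¬ M (r x) := fun x h1 h2 => by
    have := h2.2.2
    rw [h.four] at this
    exact h.ne_one x (e.injective (le_antisymm this h1.1))
  have huniq2 : ∀ x, M x → ¬ M (r (r x)) := fun x h1 h2 => by
    have := h2.2.1
    rw [h.four] at this
    exact h.two x (e.injective (le_antisymm this h1.2.1))
  have hex : ∀ x, M x ∨ M (r x) ∨ M (r (r x)) ∨ M (r (r (r x))) := fun x => by
    obtain ⟨z, hz, hmin⟩ := Finset.exists_min_image
      ({x, r x, r (r x), r (r (r x))} : Finset V) e ⟨x, by simp⟩
    simp only [Finset.mem_insert, Finset.mem_singleton, forall_eq_or_imp, forall_eq] at hz hmin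
    obtain ⟨h1, h2, h3, h4⟩ := hmin
    rcases hz with rfl | rfl | rfl | rfl
    · exact Or.inl ⟨h2, h3, h4⟩
    · exact Or.inr (Or.inl ⟨h3, h4, by rw [h.four]; exact h1⟩)
    · exact Or.inr (Or.inr (Or.inl ⟨h4, by rw [h.four]; exact h1, by rw [h.four]; exact h2⟩))
    · exact Or.inr (Or.inr (Or.inr ⟨by rw [h.four]; exact h1, by rw [h.four]; exact h2,
        by rw [h.four]; exact h3⟩))
  set b : V → Prop := fun x => M x ∨ M (r (r x)) with hb
  have hflip : ∀ x, b (r x) ↔ ¬ b x := fun x => by
    refine ⟨?_, fun hn => ?_⟩
    · rintro (h1 | h1) (h2 | h2)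
      · exact huniq x h2 h1
      · exact huniq (r x) h1 h2
      · have := huniq _ h1
        rw [h.four] at this
        exact this h2
      · exact huniq (r (r x)) h2 h1
    · rcases hex x with h1 | h1 | h1 | h1
      · exact absurd (Or.inl h1) hn
      · exact Or.inl h1
      · exact absurd (Or.inr h1) hn
      · exact Or.inr h1
  refine ⟨fun x => if b x then r x else r (r (r x)), fun v => ?_, fun v => ?_⟩
  · by_cases hv : b v
    · rw [if_pos hv, if_neg (fun hc => (hflip v).1 hc hv), h.four]
    · have h3 : b (r (r (r v))) := by
        have h1 := (hflip v).2 hv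
        have h2 : ¬ b (r (r v)) := fun hc => (hflip (r v)).1 hc h1
        exact (hflip (r (r v))).2 h2
      rw [if_neg hv, if_pos h3, h.four]
  · by_cases hv : b v
    · exact Or.inl (if_pos hv)
    · exact Or.inr (if_neg hv)

/-- The two-regular graph given by a choice `s` and the outer edges `m`. -/
def joined (s m : V → V) : SimpleGraph V := SimpleGraph.fromRel fun x y => y = s x ∨ y = m x

/-- Data fixed during the improvement. -/
structure Outer (r : V → V) (G : SimpleGraph V) (m : V → V) : Prop where
  adj : ∀ v, G.Adj v (m v)
  invol : ∀ v, m (m v) = v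
  out : ∀ v, m v ≠ r v ∧ m v ≠ r (r (r v))
  all : ∀ v w, G.Adj v w → w = r v ∨ w = r (r (r v)) ∨ w = m v

theorem exists_outer [Finite V] (h : SquareCover r G) (hdeg : ∀ v, (G.neighborSet v).ncard = 3) :
    ∃ m : V → V, Outer r G m := by
  classical
  have hu : ∀ v, ∃ w, G.neighborSet v \ {r v, r (r (r v))} = {w} := fun v => by
    rw [← Set.ncard_eq_one, Set.ncard_sdiff (by
      intro z hz
      rcases hz with rfl | rfl
      · exact h.adj v
      · exact h.adj_three v), hdeg, Set.ncard_pair (h.ne_sides v).symm]
  choose m hm using hu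
  have hmem : ∀ v, m v ∈ G.neighborSet v \ {r v, r (r (r v))} := fun v => by rw [hm v]; rfl
  have hall : ∀ v w, G.Adj v w → w = r v ∨ w = r (r (r v)) ∨ w = m v := fun v w hvw => by
    by_cases h1 : w = r v; · exact Or.inl h1
    by_cases h2 : w = r (r (r v)); · exact Or.inr (Or.inl h2)
    have : w ∈ G.neighborSet v \ {r v, r (r (r v))} := ⟨hvw, by simp [h1, h2]⟩
    rw [hm v] at this
    exact Or.inr (Or.inr this)
  have hout : ∀ v, m v ≠ r v ∧ m v ≠ r (r (r v)) := fun v => by
    have := (hmem v).2
    simp only [Set.mem_insert_iff, Set.mem_singleton_iff, not_or] at this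
    exact this
  refine ⟨m, fun v => (hmem v).1, fun v => ?_, hout, hall⟩
  rcases hall (m v) v (hmem v).1.symm with h1 | h1 | h1
  · exact absurd (by rw [congrArg (fun z => r (r (r z))) h1]; exact (h.four _).symm) (hout v).2
  · exact absurd (by rw [congrArg r h1]; exact (h.four _).symm) (hout v).1
  · exact h1.symm

variable {m s : V → V}

theorem joined_adj (h : SquareCover r G) (ho : Outer r G m) (hc : Choice r s) {x y : V} :
    (joined s m).Adj x y ↔ y = s x ∨ y = m x := by
  rw [joined, fromRel_adj]
  refine ⟨?_, fun hxy => ⟨?_, Or.inl hxy⟩⟩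
  · rintro ⟨-, h1 | (h1 | h1)⟩
    · exact h1
    · exact Or.inl (by rw [h1, hc.invol])
    · exact Or.inr (by rw [h1, ho.invol])
  · rcases hxy with rfl | rfl
    · rcases hc.side x with h1 | h1 <;> rw [h1]
      · exact (h.ne_one x).symm
      · exact (h.ne_three x).symm
    · exact (ho.adj x).ne

theorem choice_ne_outer (ho : Outer r G m) (hc : Choice r s) (v : V) : s v ≠ m v := by
  rcases hc.side v with h1 | h1 <;> rw [h1]
  · exact (ho.out v).1.symm
  · exact (ho.out v).2.symm

theorem neighborSet_joined (h : SquareCover r G) (ho : Outer r G m) (hc : Choice r s) (v : V) :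
    (joined s m).neighborSet v = {s v, m v} := by
  ext w
  simp [joined_adj h ho hc]

theorem joined_isCycles (h : SquareCover r G) (ho : Outer r G m) (hc : Choice r s) :
    (joined s m).IsCycles := fun v _ => by
  rw [neighborSet_joined h ho hc, Set.ncard_pair (choice_ne_outer ho hc v)]

theorem joined_le (h : SquareCover r G) (ho : Outer r G m) (hc : Choice r s) :
    joined s m ≤ G := fun x y hxy => by
  rcases (joined_adj h ho hc).1 hxy with rfl | rfl
  · rcases hc.side x with h1 | h1 <;> rw [h1]
    · exact h.adj x
    · exact h.adj_three x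
  · exact ho.adj x

variable (r) in
/-- The other neighbour of `a` on its square. -/
noncomputable def other (s : V → V) (a : V) : V :=
  open Classical in if s a = r a then r (r (r a)) else r a

theorem other_side (s : V → V) (a : V) : other r s a = r a ∨ other r s a = r (r (r a)) := by
  unfold other
  split_ifs <;> simp

theorem other_other (h : SquareCover r G) (hc : Choice r s) (a : V) :
    other r s (other r s a) = a := by
  rcases hc.side a with ha | ha
  · have e1 : other r s a = r (r (r a)) := by rw [other, if_pos ha]
    have h2 : s (r (r (r a))) ≠ r (r (r (r a))) := fun hx => by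
      rw [h.four] at hx
      have := congrArg s hx
      rw [hc.invol, ha] at this
      exact h.ne_sides a this
    rw [e1, other, if_neg h2, h.four]
  · have h0 : s a ≠ r a := fun hx => h.ne_sides a (by rw [← ha, hx])
    have e1 : other r s a = r a := by rw [other, if_neg h0]
    have h2 : s (r a) = r (r a) := (hc.side (r a)).resolve_right fun hx => by
      rw [h.four] at hx
      exact h0 (by rw [← hx, hc.invol, hx])
    rw [e1, other, if_pos h2, h.four]

/-- Joining two cycles at a square. -/
theorem improve [Finite V] (h : SquareCover r G) (ho : Outer r G m) (hc : Choice r s)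
    (hconn : G.Connected) (hnot : ¬ (joined s m).Preconnected) :
    ∃ s' : V → V, Choice r s' ∧
      (∀ a b, (joined s m).Reachable a b → (joined s' m).Reachable a b) ∧
      ∃ a b, ¬ (joined s m).Reachable a b ∧ (joined s' m).Reachable a b := by
  classical
  set H := joined s m with hH
  have hsx : ∀ z, H.Adj z (s z) := fun z => (joined_adj h ho hc).2 (Or.inl rfl)
  -- an edge of `G` between two cycles
  obtain ⟨x, y, hxy, hxyH⟩ : ∃ x y, G.Adj x y ∧ ¬ H.Reachable x y := by
    by_contra hno
    push Not at hno
    refine hnot fun a b => ?_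
    obtain ⟨W⟩ := hconn a b
    induction W with
    | nil => exact Reachable.refl _
    | cons hadj _ ih => exact (hno _ _ hadj).trans ih
  have hyo : y = other r s x := by
    have hy : y ≠ s x := fun e => hxyH (e ▸ (hsx x).reachable)
    rcases ho.all x y hxy with h1 | h1 | h1
    · rw [other, if_neg (fun e => hy (h1.trans e.symm)), h1]
    · by_cases e : s x = r x
      · rw [other, if_pos e, h1]
      · exact absurd (h1.trans ((hc.side x).resolve_left e).symm) hy
    · exact absurd ((joined_adj h ho hc).2 (Or.inr h1)).reachable hxyH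
  -- the square of `x`
  set Q : Set V := {x, r x, r (r x), r (r (r x))} with hQ
  have hQr : ∀ a, a ∈ Q → r a ∈ Q := fun a ha => by
    simp only [hQ, Set.mem_insert_iff, Set.mem_singleton_iff] at ha ⊢
    rcases ha with rfl | rfl | rfl | rfl <;> simp [h.four]
  have hQo : ∀ a, other r s a ∈ Q ↔ a ∈ Q := fun a => by
    constructor
    · intro ha
      rcases other_side (r := r) s a with e | e <;> rw [e] at ha
      · simpa [h.four] using hQr _ (hQr _ (hQr _ ha))
      · simpa [h.four] using hQr _ ha
    · intro ha
      rcases other_side (r := r) s a with e | e <;> rw [e]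
      · exact hQr _ ha
      · exact hQr _ (hQr _ (hQr _ ha))
  have hQs : ∀ a, s a ∈ Q ↔ a ∈ Q := fun a => by
    constructor
    · intro ha
      rcases hc.side a with e | e <;> rw [e] at ha
      · simpa [h.four] using hQr _ (hQr _ (hQr _ ha))
      · simpa [h.four] using hQr _ ha
    · intro ha
      rcases hc.side a with e | e <;> rw [e]
      · exact hQr _ ha
      · exact hQr _ (hQr _ (hQr _ ha))
  set s' : V → V := fun a => if a ∈ Q then other r s a else s a with hs'
  have hc' : Choice r s' := by
    refine ⟨fun a => ?_, fun a => ?_⟩ <;> by_cases ha : a ∈ Q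
    · simp [hs', ha, (hQo a).2 ha, other_other h hc]
    · simp [hs', ha, hQs a, hc.invol]
    · simp only [hs', if_pos ha]; exact other_side s a
    · simp only [hs', if_neg ha]; exact hc.side a
  -- the square seen from `s`
  have hQ4 : Q ⊆ {x, y, s x, s y} := by
    rcases hc.side x with e | e
    · have ey : y = r (r (r x)) := by rw [hyo, other, if_pos e]
      have es : s (r (r (r x))) = r (r x) := by
        refine ((hc.side _).resolve_left fun hx => ?_).trans (by rw [h.four])
        rw [h.four] at hx
        have := congrArg s hx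
        rw [hc.invol, e] at this
        exact h.ne_sides x this
      intro z hz
      simp only [hQ, Set.mem_insert_iff, Set.mem_singleton_iff] at hz ⊢
      rw [ey, es, e]; tauto
    · have e0 : s x ≠ r x := fun hx => h.ne_sides x (by rw [← e, hx])
      have ey : y = r x := by rw [hyo, other, if_neg e0]
      have es : s (r x) = r (r x) := (hc.side _).resolve_right fun hx => by
        rw [h.four] at hx
        exact e0 (by rw [← hx, hc.invol, hx])
      intro z hz
      simp only [hQ, Set.mem_insert_iff, Set.mem_singleton_iff] at hz ⊢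
      rw [ey, es, e]; tauto
  have hxQ : x ∈ Q := by simp [hQ]
  have hyQ : y ∈ Q := by rw [hyo]; exact (hQo x).2 hxQ
  -- edges away from the two old square edges survive
  have keep : ∀ a b, H.Adj a b → s(a, b) ≠ s(x, s x) → s(a, b) ≠ s(y, s y) →
      (joined s' m).Adj a b := fun a b hab h1 h2 => by
    rcases (joined_adj h ho hc).1 hab with rfl | rfl
    · by_cases ha : a ∈ Q
      · have hz := hQ4 ha
        simp only [Set.mem_insert_iff, Set.mem_singleton_iff] at hz
        rcases hz with rfl | rfl | rfl | rfl
        · exact absurd rfl h1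
        · exact absurd rfl h2
        · exact absurd (by rw [hc.invol]; exact Sym2.eq_swap) h1
        · exact absurd (by rw [hc.invol]; exact Sym2.eq_swap) h2
      · exact (joined_adj h ho hc').2 (Or.inl (by simp [hs', ha]))
    · exact (joined_adj h ho hc').2 (Or.inr rfl)
  -- each old square edge lies on a cycle avoiding the other
  have loopAt : ∀ x₁ x₂, ¬ H.Reachable x₁ x₂ →
      (∀ a b, H.Adj a b → s(a, b) ≠ s(x₁, s x₁) → s(a, b) ≠ s(x₂, s x₂) →
        (joined s' m).Adj a b) → (joined s' m).Reachable x₁ (s x₁) := fun x₁ x₂ hne hk => by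
    obtain ⟨W⟩ := (joined_isCycles h ho hc).reachable_deleteEdges (hsx x₁)
    have aux : ∀ {a b : V}, (H.deleteEdges {s(x₁, s x₁)}).Walk a b → H.Reachable x₁ a →
        (joined s' m).Reachable a b := by
      intro a b W'
      induction W' with
      | nil => exact fun _ => Reachable.refl _
      | @cons a c b hac _ ih =>
        intro ha
        rw [deleteEdges_adj] at hac
        have hcH : H.Reachable x₁ c := ha.trans hac.1.reachable
        refine (hk a c hac.1 (by simpa using hac.2) fun e => ?_).reachable.trans (ih hcH)
        rcases Sym2.eq_iff.1 e with ⟨e1, -⟩ | ⟨-, e2⟩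
        · exact hne (e1 ▸ ha)
        · exact hne (e2 ▸ hcH)
    exact aux W (Reachable.refl _)
  have rx : (joined s' m).Reachable x (s x) := loopAt x y hxyH keep
  have ry : (joined s' m).Reachable y (s y) :=
    loopAt y x (fun e => hxyH e.symm) fun a b hab h1 h2 => keep a b hab h2 h1
  refine ⟨s', hc', fun a b hab => ?_, x, y, hxyH, ?_⟩
  · obtain ⟨W⟩ := hab
    induction W with
    | nil => exact Reachable.refl _
    | @cons a c b hac _ ih =>
      refine Reachable.trans ?_ ih
      by_cases h1 : s(a, c) = s(x, s x)
      · rcases Sym2.eq_iff.1 h1 with ⟨rfl, rfl⟩ | ⟨rfl, rfl⟩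
        · exact rx
        · exact rx.symm
      by_cases h2 : s(a, c) = s(y, s y)
      · rcases Sym2.eq_iff.1 h2 with ⟨rfl, rfl⟩ | ⟨rfl, rfl⟩
        · exact ry
        · exact ry.symm
      exact (keep a c hac h1 h2).reachable
  · exact ((joined_adj h ho hc').2 (Or.inl (by simp [hs', hxQ, hyo]))).reachable

/-- Some choice gives one cycle. -/
theorem exists_connected [Finite V] (h : SquareCover r G) (ho : Outer r G m)
    (hconn : G.Connected) : ∃ s : V → V, Choice r s ∧ (joined s m).Preconnected := by
  classical
  obtain ⟨s₀, hs₀⟩ := exists_choice h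
  set P : (V → V) → Set (V × V) := fun s => {p | (joined s m).Reachable p.1 p.2} with hP
  have hfin : {s : V → V | Choice r s}.Finite := Set.toFinite _
  obtain ⟨s, hs, hmax⟩ := hfin.exists_maximalFor (fun s => (P s).ncard) _ ⟨s₀, hs₀⟩
  refine ⟨s, hs, ?_⟩
  by_contra hnot
  obtain ⟨s', hs', hmono, a, b, hab, hab'⟩ := improve h ho hs hconn hnot
  have hlt : (P s).ncard < (P s').ncard :=
    Set.ncard_lt_ncard ⟨fun p hp => hmono _ _ hp, fun hle => hab (hle (a := (a, b)) hab')⟩
      (Set.toFinite _)
  exact absurd (hmax hs' hlt.le) (not_le.2 hlt)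

end Vale.Agent.P039
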